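import Vale.Agent.P154.NegEnd.ClosingData
import Vale.Agent.P154.NegEnd.EnvBase

/-!
P154 NegEnd: certificate of the closing inequality in chart 2 (generated), part 2: kernel leaves.
-/

namespace Vale.Agent.P154.NegEnd

open PolyCheck

theorem leavesClosingChk22 :
    (checkAlt 4 alts2 (.leaf 0) [⟨0, 708, 2000⟩, ⟨-1, 1, 1⟩, ⟨447, 473, 1000⟩, ⟨4551, 6068, 4000⟩] = true) ∧
    (checkAlt 4 alts2 (.leaf 0) [⟨1416, 2124, 4000⟩, ⟨-1, 1, 1⟩, ⟨447, 473, 1000⟩, ⟨3034, 4551, 4000⟩] = true) ∧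
    (checkAlt 4 alts2 (.leaf 1) [⟨2124, 2832, 4000⟩, ⟨-1, 1, 1⟩, ⟨447, 473, 1000⟩, ⟨3034, 4551, 4000⟩] = true) ∧
    (checkAlt 4 alts2 (.leaf 1) [⟨708, 1416, 2000⟩, ⟨-1, 1, 1⟩, ⟨447, 473, 1000⟩, ⟨4551, 6068, 4000⟩] = true) := by
  refine ⟨?_, ?_, ?_, ?_⟩ <;> decide +kernel

end Vale.Agent.P154.NegEnd
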