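import Vale.Agent.P154.NegEnd.ClosingData
import Vale.Agent.P154.NegEnd.EnvBase

/-!
P154 NegEnd: certificate of the closing inequality in chart 2 (generated), part 0: kernel leaves.
-/

namespace Vale.Agent.P154.NegEnd

open PolyCheck

theorem leavesClosingChk20 :
    (checkAlt 4 alts2 (.leaf 0) [⟨0, 708, 2000⟩, ⟨-1, 1, 1⟩, ⟨447, 473, 1000⟩, ⟨0, 1517, 2000⟩] = true) ∧
    (checkAlt 4 alts2 (.leaf 0) [⟨708, 1416, 2000⟩, ⟨-1, 1, 1⟩, ⟨447, 473, 1000⟩, ⟨0, 1517, 4000⟩] = true) ∧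
    (checkAlt 4 alts2 (.leaf 0) [⟨708, 1416, 2000⟩, ⟨-1, 1, 1⟩, ⟨447, 473, 1000⟩, ⟨1517, 3034, 4000⟩] = true) ∧
    (checkAlt 4 alts2 (.leaf 0) [⟨0, 708, 4000⟩, ⟨-2, 0, 2⟩, ⟨447, 473, 1000⟩, ⟨6068, 7585, 8000⟩] = true) := by
  refine ⟨?_, ?_, ?_, ?_⟩ <;> decide +kernel

end Vale.Agent.P154.NegEnd
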